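import Vale.Agent.P098.Regularity.Cone.Root

/-!
P098, block B6 in dimensions two and three.
-/

open Filter Matrix
open scoped Topology ContDiff RealInnerProductSpace

namespace Vale.Agent.P098.Cone

open Vale.Agent.P098.ReduceN

noncomputable section

/-- The inequality of Kato type for three numbers with sum zero. -/
lemma kato_aux (p q a b : ℝ) :
    3 / 2 * ((-(p + q)) * -(a + b) + p * a + q * b) ^ 2 ≤
      ((-(p + q)) ^ 2 + p ^ 2 + q ^ 2) * ((-(a + b)) ^ 2 + 3 * a ^ 2 + 3 * b ^ 2) := by
  nlinarith [sq_nonneg (p * b - q * a), sq_nonneg (p * a - q * b), sq_nonneg (p * a + q * b),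
    sq_nonneg (p * b + q * a), sq_nonneg ((p - q) * (a + b)), sq_nonneg ((p + q) * (a - b)),
    sq_nonneg ((p + q) * (a + b)), sq_nonneg ((p - q) * (a - b))]

theorem kato_two : Kato 2 := by
  intro L u hL hu c
  simp only [Fin.sum_univ_two] at hL hu
  have h1 : L 1 = -L 0 := by linarith
  have h2 : u 1 = -u 0 := by linarith
  simp only [usum, psum, Fin.sum_univ_two, pow_one, h1, h2]
  fin_cases c <;> simp <;> nlinarith [sq_nonneg (L 0 * u 0)]

theorem kato_three : Kato 3 := by
  intro L u hL hu c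
  simp only [Fin.sum_univ_three] at hL hu
  simp only [usum, psum, Fin.sum_univ_three, pow_one]
  fin_cases c <;> simp
  · rw [show L 0 = -(L 1 + L 2) by linarith, show u 0 = -(u 1 + u 2) by linarith]
    nlinarith [kato_aux (L 1) (L 2) (u 1) (u 2)]
  · rw [show L 1 = -(L 0 + L 2) by linarith, show u 1 = -(u 0 + u 2) by linarith]
    nlinarith [kato_aux (L 0) (L 2) (u 0) (u 2)]
  · rw [show L 2 = -(L 0 + L 1) by linarith, show u 2 = -(u 0 + u 1) by linarith]
    nlinarith [kato_aux (L 0) (L 1) (u 0) (u 1)]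

/-- B6 in dimension two: the Hessian of a cone vanishes. -/
theorem coneBlock_two : ConeBlock 2 := by
  intro u hu _
  obtain ⟨W, v, hW, hsub, hv, hvu, -⟩ := hu.smooth
  refine flat_of_hessian_zero le_rfl hu fun x hx i j => ?_
  have hx0 := ne_zero_of_mem_posSet hu hx
  obtain ⟨L, hL, hQ, -⟩ := arg_frame (n := 1) hu hW hsub hv hvu (subset_closure hx) hx0
  have h0 : (argOf v x).1 = 0 := by
    rw [hQ, psum, Fin.sum_univ_one, show L 0 = 0 by simpa using hL]
    norm_num
  rw [← hess_eq_zero (n := 1) hu hW hsub hv hvu (subset_closure hx) hx0 h0 i j]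
  exact pd_congr (by
    filter_upwards [(eventuallyEq_of_mem_posSet hu hvu hx).eventually_nhds] with y hy
    exact pd_congr hy i) j

/-- B6 in dimension three. -/
theorem coneBlock_three : ConeBlock 3 := by
  intro u hu hmin
  obtain ⟨W, v, hW, hsub, hv, hvu, hbd⟩ := hu.smooth
  refine flat_of_cube_nonpos (n := 2) hu hW hsub hv hvu hbd two_pos (by norm_num) kato_two hmin
    fun x hx hx0 => ?_
  obtain ⟨L, hL, -, hC⟩ := arg_frame (n := 2) hu hW hsub hv hvu hx.1 hx0
  rw [hC, psum, Fin.sum_univ_two, show L 1 = -L 0 by simp [Fin.sum_univ_two] at hL; linarith]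
  exact le_of_eq (by ring)

end

end Vale.Agent.P098.Cone
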