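import Vale.Agent.P098.ReduceN.Main
import Vale.Agent.P098.Regularity.Defs

/-!
P098, block B6 in low dimensions: the test function `(Q² + ε)^(1/4)`. A stable smooth cone is flat
when the trace of the cube of its Hessian is nonpositive on the free boundary, in dimensions where
the pointwise inequality of Kato type holds and the radial constant is small.
-/

open Filter Matrix
open scoped Topology ContDiff RealInnerProductSpace

namespace Vale.Agent.P098.Cone

open Vale.Agent.P098.ReduceN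
open Vale.Agent.P098.Reduce (Mat hessM thirdM posVec coefArg conj conj_pow trace_conj hsum)

noncomputable section

variable {n : ℕ}

/-- The field `T : H` alone. -/
def oneField : Fields := ⟨1, 0, 0, ![0], ![], ![], ![]⟩

/-- The fields used to read off the third derivatives on the boundary. -/
def readFields : Fields := ⟨1, 2, 0, ![0], ![0, 1], ![], ![]⟩

lemma sum_one_A (f : Fin oneField.M → ℝ) : ∑ m, f m = f ⟨0, Nat.zero_lt_one⟩ :=
  Fin.sum_univ_one f

lemma sum_read_A (f : Fin readFields.M → ℝ) : ∑ m, f m = f ⟨0, Nat.zero_lt_one⟩ :=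
  Fin.sum_univ_one f

lemma sum_read_B (f : Fin readFields.J → ℝ) :
    ∑ j, f j = f ⟨0, Nat.zero_lt_two⟩ + f ⟨1, Nat.one_lt_two⟩ :=
  Fin.sum_univ_two f

lemma sum_none {σ : Fields} (h : σ.K = 0) (f : Fin σ.K → ℝ) : ∑ m, f m = 0 :=
  Finset.sum_eq_zero fun m _ => absurd m.isLt (by omega)

lemma sum_one_B (f : Fin oneField.J → ℝ) : ∑ j, f j = 0 := Fin.sum_univ_zero f

/-- A coefficient of `(Q, C₃)` alone: its jet from the two partial derivatives. -/
lemma jet1Of_two {f : ℝ → ℝ → ℝ} {z : Arg} {a b : ℝ}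
    (hd : DifferentiableAt ℝ (fun w : Arg => f w.1 w.2.2.2.1) z)
    (hQ : HasDerivAt (fun Q => f Q z.2.2.2.1) a z.1) (hC : HasDerivAt (f z.1) b z.2.2.2.1) :
    jet1Of (fun w : Arg => f w.1 w.2.2.2.1) z = (f z.1 z.2.2.2.1, a, 0, 0, b, 0) := by
  have key : ∀ (v : Arg) (c : ℝ), HasDerivAt (fun t : ℝ => f (z.1 + t * v.1)
      (z.2.2.2.1 + t * v.2.2.2.1)) c 0 → fderiv ℝ (fun w : Arg => f w.1 w.2.2.2.1) z v = c := by
    intro v c h
    rw [← hd.lineDeriv_eq_fderiv, lineDeriv]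
    simpa using h.deriv
  have h0 : ∀ v : Arg, v.1 = 0 → v.2.2.2.1 = 0 →
      fderiv ℝ (fun w : Arg => f w.1 w.2.2.2.1) z v = 0 := fun v h1 h2 =>
    key v 0 (by simp only [h1, h2, mul_zero, add_zero]; exact hasDerivAt_const _ _)
  refine Prod.ext rfl (Prod.ext (key _ a ?_) (Prod.ext (h0 _ rfl rfl) (Prod.ext (h0 _ rfl rfl)
    (Prod.ext (key _ b ?_) (h0 _ rfl rfl)))))
  · simpa using HasDerivAt.comp_const_add (f := fun Q => f Q z.2.2.2.1) (a := z.1) (x := (0 : ℝ))
      (by simpa using hQ)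
  · simpa using HasDerivAt.comp_const_add (f := f z.1) (a := z.2.2.2.1) (x := (0 : ℝ))
      (by simpa using hC)

section Frame

variable {u v : Euc (n + 1) → ℝ} {W : Set (Euc (n + 1))} (hu : IsSmoothCone u) (hW : IsOpen W)
  (hsub : closure (posSet u) \ {0} ⊆ W) (hv : ContDiffOn ℝ ∞ v W)
  (hvu : Set.EqOn v u (posSet u))

include hu hW hsub hv hvu in
/-- The traces of the powers of the Hessian are power sums of numbers with sum zero. -/
lemma arg_frame {x : Euc (n + 1)} (hx : x ∈ closure (posSet u)) (hx0 : x ≠ 0) :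
    ∃ L : Fin n → ℝ, ∑ i, L i = 0 ∧ (argOf v x).1 = psum L 2 ∧
      (argOf v x).2.2.2.1 = psum L 3 := by
  obtain ⟨hs, htr, hHx, -⟩ := jet_props hu hW hsub hv hvu hx hx0
  have hr : 0 < ‖x‖ := norm_pos_iff.2 hx0
  have hee : (‖x‖⁻¹ • posVec x) ⬝ᵥ (‖x‖⁻¹ • posVec x) = 1 := by
    have hxx : posVec x ⬝ᵥ posVec x = ‖x‖ ^ 2 := by
      rw [EuclideanSpace.norm_sq_eq]
      simp [posVec, dotProduct, pow_two]
    rw [smul_dotProduct, dotProduct_smul, hxx, smul_eq_mul, smul_eq_mul]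
    field_simp
  obtain ⟨O, L, hO, -, hconj, hL⟩ := exists_frame (H := ‖x‖ • hessM v x) (e := ‖x‖⁻¹ • posVec x)
    (by rw [Matrix.transpose_smul, hs]) (by rw [Matrix.trace_smul, htr, smul_zero]) hee
    (by rw [Matrix.smul_mulVec, Matrix.mulVec_smul, hHx, smul_zero, smul_zero])
  have hp : ∀ m, ‖x‖ ^ (m + 1) * (hessM v x ^ (m + 1)).trace = psum L (m + 1) := fun m => by
    rw [← trace_frameHess_pow m, ← hconj, conj_pow hO, trace_conj hO, smul_pow, Matrix.trace_smul,
      smul_eq_mul]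
  refine ⟨L, hL, ?_, hp 2⟩
  rw [← hp 1]
  simp [argOf, coefArg, pow_two]

include hu hW hsub hv hvu in
/-- A vanishing `tr H²` makes the Hessian vanish. -/
lemma hess_eq_zero {x : Euc (n + 1)} (hx : x ∈ closure (posSet u)) (hx0 : x ≠ 0)
    (hQ : (argOf v x).1 = 0) : ∀ i j, pd j (pd i v) x = 0 := by
  obtain ⟨hs, -⟩ := jet_props hu hW hsub hv hvu hx hx0
  have hr : 0 < ‖x‖ := norm_pos_iff.2 hx0
  have hz : (hessM v x * hessM v x).trace = 0 := by
    rw [argOf, coefArg] at hQ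
    exact (mul_eq_zero.1 hQ).resolve_left (by positivity)
  have e : (hessM v x * hessM v x).trace = ∑ a, ∑ b, hessM v x a b * hessM v x a b :=
    Finset.sum_congr rfl fun a _ => (Matrix.mul_apply).trans (Finset.sum_congr rfl fun b _ => by
      rw [show hessM v x b a = hessM v x a b from congrFun (congrFun hs a) b])
  rw [e] at hz
  intro i j
  have h1 := (Finset.sum_eq_zero_iff_of_nonneg fun a _ =>
    Finset.sum_nonneg fun b _ => mul_self_nonneg (hessM v x a b)).1 hz i (Finset.mem_univ i)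
  exact mul_self_eq_zero.1 ((Finset.sum_eq_zero_iff_of_nonneg fun b _ =>
    mul_self_nonneg (hessM v x i b)).1 h1 j (Finset.mem_univ j))

variable (hbd : ∀ x ∈ frontier (posSet u), x ≠ 0 → ‖fderiv ℝ v x‖ = 1)

include hu hW hsub hv hvu hbd in
/-- The third derivatives against the Hessian in the normal direction on the free boundary. -/
lemma boundary_tau (hn : 0 < n) {x : Euc (n + 1)} (hx : x ∈ frontier (posSet u)) (hx0 : x ≠ 0) :
    ‖x‖ ^ 3 * ∑ k, Reduce.contract (hessM v x) (thirdM v x) 1 k * pd k v x =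
      2 * (‖x‖ * ∑ k, hessGrad v k x * pd k v x) * (argOf v x).1 - (argOf v x).2.2.2.1 := by
  have hr : 0 < ‖x‖ := norm_pos_iff.2 hx0
  have main : ∀ c : ℝ,
      c * (‖x‖ ^ 3 * ∑ k, Reduce.contract (hessM v x) (thirdM v x) 1 k * pd k v x -
        2 * (‖x‖ * ∑ k, hessGrad v k x * pd k v x) * (argOf v x).1 + (argOf v x).2.2.2.1) ≤ 0 := by
    intro c
    have hsum : ∑ k, pd k v x * pd k v x = 1 := by
      have h : gradSq v x = 1 := by rw [← norm_fderiv_sq, hbd x hx hx0]; norm_num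
      exact h
    have hHg : ∀ k, (hessM v x *ᵥ gradVec v x) k =
        (∑ i, hessGrad v i x * pd i v x) * pd k v x := fun k => by
      obtain ⟨hs, -⟩ := jet_props hu hW hsub hv hvu hx.1 hx0
      rw [← hessGrad_eq hu hW hsub hv hvu hbd hx hx0 k, Matrix.mulVec, dotProduct, hessGrad]
      refine Finset.sum_congr rfl fun j _ => ?_
      rw [show hessM v x k j = hessM v x j k from congrFun (congrFun hs j) k]
      exact mul_comm _ _
    set D : Data readFields (Arg → ℝ) :=
      ⟨fun _ => 0, fun _ _ => c, ![fun z => c * z.2.2.2.1, fun z => -(2 * c * z.1)],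
        fun i => i.elim0⟩ with hD
    have hB : BoundaryIneq n readFields D 0 := fun L _ a _ => by
      simp only [sum_read_A, sum_read_B, sum_none (σ := readFields) rfl]
      simp [D, readFields, fluxTrace]
      ring_nf
      exact le_refl _
    have h := flux_le hu hW hsub hv hvu hbd hn hB hx hx0
    simp only [zero_div] at h
    rw [show certF n D.Φ v x = 0 by simp [certF, D], zero_mul, add_zero] at h
    have e : ∀ k, certV n readFields D v k x =
        ‖x‖ ^ (-((n : ℤ) - 3)) * c * Reduce.contract (hessM v x) (thirdM v x) 1 k +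
          (‖x‖ ^ (-(n : ℤ)) * (c * (argOf v x).2.2.2.1) * pd k v x +
            ‖x‖ ^ (-((n : ℤ) - 1)) * (-(2 * c * (argOf v x).1)) *
              ((∑ i, hessGrad v i x * pd i v x) * pd k v x)) := fun k => by
      simp only [certV, sum_read_A, sum_read_B, sum_none (σ := readFields) rfl]
      simp [D, readFields, expA, expB, hHg, gradVec]
    simp only [e, add_mul, Finset.sum_add_distrib] at h
    simp only [mul_assoc, ← Finset.mul_sum, hsum, mul_one] at h
    have ez : ∀ (m : ℕ), ‖x‖ ^ (-((n : ℤ) - m)) = ‖x‖ ^ m * ‖x‖ ^ (-(n : ℤ)) := fun m => by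
      rw [← zpow_natCast ‖x‖ m, ← zpow_add₀ hr.ne']
      congr 1
      ring
    have e3 := ez 3
    have e1 := ez 1
    push_cast at e3 e1
    rw [e3, e1, pow_one] at h
    have hz : 0 < ‖x‖ ^ (-(n : ℤ)) := zpow_pos hr _
    refine nonpos_of_mul_nonpos_right ?_ hz
    refine le_trans (le_of_eq ?_) h
    ring
  linarith [main 1, main (-1)]

end Frame

/-- The fourth root of `Q² + ε`. -/
def root (ε Q : ℝ) : ℝ := √(√(Q ^ 2 + ε))

variable {ε : ℝ}

lemma root_pos (hε : 0 < ε) (Q : ℝ) : 0 < root ε Q :=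
  Real.sqrt_pos.2 (Real.sqrt_pos.2 (by positivity))

lemma root_pow (hε : 0 < ε) (Q : ℝ) : root ε Q ^ 4 = Q ^ 2 + ε := by
  rw [show root ε Q ^ 4 = (root ε Q ^ 2) ^ 2 by ring, root, Real.sq_sqrt (Real.sqrt_nonneg _),
    Real.sq_sqrt (by positivity)]

lemma hasDerivAt_root (hε : 0 < ε) (Q : ℝ) :
    HasDerivAt (root ε) (Q / (2 * root ε Q ^ 3)) Q := by
  have h1 : 0 < √(Q ^ 2 + ε) := Real.sqrt_pos.2 (by positivity)
  have h := (((hasDerivAt_pow 2 Q).add_const ε).sqrt (by positivity)).sqrt h1.ne'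
  refine h.congr_deriv ?_
  have h2 : root ε Q ^ 2 = √(Q ^ 2 + ε) := Real.sq_sqrt (Real.sqrt_nonneg _)
  have h3 := root_pos hε Q
  rw [show root ε Q ^ 3 = root ε Q ^ 2 * root ε Q by ring, h2]
  show _ / (2 * root ε Q) = _
  push_cast
  field_simp

/-- The coefficient of the field. -/
def rootA (ε Q : ℝ) : ℝ := -(Q / (2 * root ε Q ^ 3))

lemma hasDerivAt_rootA (hε : 0 < ε) (Q : ℝ) :
    HasDerivAt (rootA ε) (3 * Q ^ 2 / (4 * root ε Q ^ 7) - 1 / (2 * root ε Q ^ 3)) Q := by
  have h := root_pos hε Q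
  have h3 : HasDerivAt (fun t => 2 * root ε t ^ 3)
      (2 * (3 * root ε Q ^ 2 * (Q / (2 * root ε Q ^ 3)))) Q := by
    simpa using ((hasDerivAt_root hε Q).pow 3).const_mul 2
  refine (((hasDerivAt_id Q).div h3 (by positivity)).neg).congr_deriv ?_
  simp only [id]
  field_simp
  ring

lemma contDiff_root (hε : 0 < ε) {k : WithTop ℕ∞} : ContDiff ℝ k (root ε) :=
  (((contDiff_id.pow 2).add contDiff_const).sqrt fun Q => (by positivity : (id Q) ^ 2 + ε ≠ 0)).sqrt
    fun Q => (Real.sqrt_pos.2 (by positivity : 0 < (id Q) ^ 2 + ε)).ne'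

/-- The family. -/
def rootData (ε : ℝ) : Data oneField (Arg → ℝ) :=
  ⟨fun z => root ε z.1, fun _ z => rootA ε z.1, fun j => j.elim0, fun i => i.elim0⟩

lemma contDiff_rootData (hε : 0 < ε) {k : WithTop ℕ∞} :
    ContDiff ℝ k (rootData ε).Φ ∧ ∀ m, ContDiff ℝ k ((rootData ε).A m) := by
  refine ⟨(contDiff_root hε).comp contDiff_fst, fun m => ?_⟩
  exact ((contDiff_fst.div (contDiff_const.mul (((contDiff_root hε).comp contDiff_fst).pow 3))
    fun z => mul_ne_zero two_ne_zero (pow_ne_zero 3 (root_pos hε _).ne')).neg)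

/-- The bound: the radial constant. -/
def rootBound (n : ℕ) (ε : ℝ) (z : Arg) : ℝ :=
  ((n : ℝ) - 1) ^ 2 / 4 * root ε z.1 + (n : ℝ) * rootA ε z.1 * z.1

/-- The inequality of Kato type in dimension `n + 1`. -/
def Kato (n : ℕ) : Prop :=
  ∀ L u : Fin n → ℝ, ∑ i, L i = 0 → ∑ i, u i = 0 → ∀ c : Fin n,
    3 / 2 * usum L u 1 ^ 2 ≤ psum L 2 * ∑ i, (if i = c then 1 else 3) * u i ^ 2

/-- The interior inequality. -/
lemma interior_root (hε : 0 < ε) (hK : Kato n) :
    InteriorIneq n oneField (rootData ε) (rootBound n ε) := by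
  intro L hL s q _ _ _
  set z : Arg := (psum L 2, s, s ^ 2 + q ^ 2, psum L 3, psum L 4) with hz
  set Q := psum L 2 with hQ
  have hQ0 : 0 ≤ Q := Finset.sum_nonneg fun i _ => sq_nonneg _
  set R := root ε Q with hR
  have hR0 : 0 < R := root_pos hε Q
  have hj : ∀ {f f' : ℝ → ℝ}, (∀ t, HasDerivAt f (f' t) t) →
      jet1Of (fun w : Arg => f w.1) z = (f Q, f' Q, 0, 0, 0, 0) := fun {f f'} hf =>
    jet1Of_two (f := fun t _ => f t) ((hf z.1).differentiableAt.comp z differentiableAt_fst)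
      (hf z.1) (hasDerivAt_const _ _)
  have jΦ : jet1Of (rootData ε).Φ z = _ := hj (hasDerivAt_root hε)
  have jA : ∀ m, jet1Of ((rootData ε).A m) z = _ := fun m => hj (hasDerivAt_rootA hε)
  refine ⟨by simpa [coefsOf, Data.map, jΦ] using hR0.le, fun a i l _ _ _ => ?_, fun c u y hu => ?_⟩
  · have hA : rootA ε Q ≤ 0 := neg_nonpos.2 (div_nonneg hQ0 (by positivity))
    simp only [tripleWeight, kernAt, kern, sum_one_A, sum_none (σ := oneField) rfl, coefsOf,
      Data.map, jA]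
    simp [oneField, hsum]
    linarith
  · have hk := hK L u hL hu c
    set W := ∑ i, (if i = c then (1 : ℝ) else 3) * u i ^ 2 with hW
    set w := usum L u 1 with hw
    have hd : ∑ i, diagWeight (kernAt (coefsOf (rootData ε) z) L) c i * u i ^ 2 =
        rootA ε Q * W := by
      rw [hW, Finset.mul_sum]
      refine Finset.sum_congr rfl fun i _ => ?_
      simp only [diagWeight, kernAt, kern, sum_one_A, sum_none (σ := oneField) rfl, coefsOf,
        Data.map, jA]
      split_ifs <;> simp [oneField, hsum] <;> ring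
    rw [block, hd]
    simp only [constPart, sum_one_A, sum_one_B, sum_none (σ := oneField) rfl, coefsOf,
      Data.map, jΦ, jA]
    simp [dCoef, rootBound, oneField, z, ← hQ, ← hw, ← hR]
    have hS : R ^ 4 = Q ^ 2 + ε := root_pow hε Q
    have hW0 : 0 ≤ W := Finset.sum_nonneg fun i _ => by split_ifs <;> positivity
    have h1 : y * (2 * (Q / (2 * R ^ 3)) * w) - y ^ 2 * R ≤ (Q / (2 * R ^ 3) * w) ^ 2 / R := by
      rw [le_div_iff₀ hR0]
      nlinarith [sq_nonneg (y * R - Q / (2 * R ^ 3) * w)]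
    have h2 : (Q / (2 * R ^ 3) * w) ^ 2 / R +
        2 * (3 * Q ^ 2 / (4 * R ^ 7) - 1 / (2 * R ^ 3)) * w * w + rootA ε Q * W ≤ 0 := by
      have e : (Q / (2 * R ^ 3) * w) ^ 2 / R +
          2 * (3 * Q ^ 2 / (4 * R ^ 7) - 1 / (2 * R ^ 3)) * w * w + rootA ε Q * W =
          ((7 / 4 * Q ^ 2 - R ^ 4) * w ^ 2 - Q * R ^ 4 * W / 2) / R ^ 7 := by
        rw [rootA, ← hR]
        field_simp
        ring
      rw [e]
      refine div_nonpos_of_nonpos_of_nonneg ?_ (by positivity)
      rw [hS]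
      nlinarith [mul_le_mul_of_nonneg_left hk (sq_nonneg Q), mul_nonneg hε.le (sq_nonneg w),
        mul_nonneg (mul_nonneg hQ0 hε.le) hW0]
    rw [show 1 / (2 * R ^ 3) = (R ^ 3)⁻¹ * 2⁻¹ by rw [one_div, mul_inv, mul_comm]] at h2
    linarith

variable {u v : Euc (n + 1) → ℝ} {W : Set (Euc (n + 1))} (hu : IsSmoothCone u) (hW : IsOpen W)
  (hsub : closure (posSet u) \ {0} ⊆ W) (hv : ContDiffOn ℝ ∞ v W)
  (hvu : Set.EqOn v u (posSet u))
  (hbd : ∀ x ∈ frontier (posSet u), x ≠ 0 → ‖fderiv ℝ v x‖ = 1)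

include hu hW hsub hv hvu hbd in
/-- The flux is nonpositive where `tr H³ ≤ 0`. -/
lemma flux_root (hε : 0 < ε) (hn : 0 < n) {x : Euc (n + 1)} (hx : x ∈ frontier (posSet u))
    (hx0 : x ≠ 0) (hC : (argOf v x).2.2.2.1 ≤ 0) :
    ∑ k, certV n oneField (rootData ε) v k x * pd k v x +
      certF n (rootData ε).Φ v x * ∑ k, hessGrad v k x * pd k v x ≤ 0 := by
  have hr : 0 < ‖x‖ := norm_pos_iff.2 hx0
  have ht := boundary_tau hu hW hsub hv hvu hbd hn hx hx0
  obtain ⟨L, -, hQ, -⟩ := arg_frame hu hW hsub hv hvu hx.1 hx0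
  have hQ0 : 0 ≤ (argOf v x).1 := hQ ▸ Finset.sum_nonneg fun i _ => sq_nonneg _
  set Q := (argOf v x).1
  set C := (argOf v x).2.2.2.1
  set τ := ∑ k, Reduce.contract (hessM v x) (thirdM v x) 1 k * pd k v x with hτ
  set ν := ∑ k, hessGrad v k x * pd k v x
  have hν : ν ≤ 0 := hessGrad_dot_nonpos hu hW hsub hv hvu hbd (by omega) hx hx0
  set R := root ε Q with hR
  have hR0 := root_pos hε Q
  have e : ∑ k, certV n oneField (rootData ε) v k x * pd k v x =
      ‖x‖ ^ (-((n : ℤ) - 3)) * rootA ε Q * τ := by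
    simp only [certV, sum_one_A, sum_one_B, sum_none (σ := oneField) rfl, add_zero]
    simp [oneField, rootData, expA, hτ, Finset.mul_sum, mul_assoc, Q]
  rw [e, certF, show (rootData ε).Φ (argOf v x) = R from rfl]
  have e3 : ‖x‖ ^ (-((n : ℤ) - 3)) = ‖x‖ ^ (-(n : ℤ)) * ‖x‖ ^ 3 := by
    rw [← zpow_natCast ‖x‖ 3, ← zpow_add₀ hr.ne']
    congr 1
    push_cast
    ring
  have e1 : ‖x‖ ^ (-((n : ℤ) - 1)) = ‖x‖ ^ (-(n : ℤ)) * ‖x‖ := by
    nth_rw 3 [← zpow_one ‖x‖]
    rw [← zpow_add₀ hr.ne']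
    congr 1
    ring
  rw [e3, e1]
  have hz : 0 < ‖x‖ ^ (-(n : ℤ)) := zpow_pos hr _
  have key : rootA ε Q * (‖x‖ ^ 3 * τ) + R * (‖x‖ * ν) ≤ 0 := by
    rw [ht]
    have ek : rootA ε Q * (2 * (‖x‖ * ν) * Q - C) + R * (‖x‖ * ν) =
        ((R ^ 4 - Q ^ 2) * (‖x‖ * ν) + Q * C / 2) / R ^ 3 := by
      rw [rootA, ← hR]
      field_simp
      ring
    rw [ek, root_pow hε Q]
    refine div_nonpos_of_nonpos_of_nonneg ?_ (by positivity)
    nlinarith [mul_nonpos_of_nonneg_of_nonpos hQ0 hC,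
      mul_nonpos_of_nonneg_of_nonpos hε.le (mul_nonpos_of_nonneg_of_nonpos hr.le hν)]
  calc _ = ‖x‖ ^ (-(n : ℤ)) * (rootA ε Q * (‖x‖ ^ 3 * τ) + R * (‖x‖ * ν)) := by ring
    _ ≤ 0 := mul_nonpos_of_nonneg_of_nonpos hz.le key

include hu hW hsub hv hvu hbd in
/-- A stable cone with `tr H³ ≤ 0` on the free boundary is flat when `(n - 1)² / 4 < n / 2`. -/
theorem flat_of_cube_nonpos (hn : 0 < n) (hc : ((n : ℝ) - 1) ^ 2 / 4 < (n : ℝ) / 2) (hK : Kato n)
    (hmin : IsStable u)
    (hcube : ∀ x ∈ frontier (posSet u), x ≠ 0 → (argOf v x).2.2.2.1 ≤ 0) : IsFlat u := by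
  set W' := W \ ({0} : Set (Euc (n + 1)))
  have hWo : IsOpen W' := hW.sdiff isClosed_singleton
  have hsub' : closure (posSet u) \ {0} ⊆ W' := fun x hx => ⟨hsub hx, hx.2⟩
  have hv' : ContDiffOn ℝ ∞ v W' := hv.mono Set.sdiff_subset
  have h4 : ∀ x ∈ W', ContDiffAt ℝ 4 v x := fun x hx =>
    (hv'.contDiffAt (hWo.mem_nhds hx)).of_le (WithTop.coe_le_coe.2 le_top)
  have hQc : ContinuousOn (fun x => (argOf v x).1) W' := fun x hx =>
    (contDiffAt_argOf hx.2 (h4 x hx)).fst.continuousAt.continuousWithinAt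
  set c : ℝ := ((n : ℝ) - 1) ^ 2 / 4 with hc'
  have hc0 : 0 ≤ c := by positivity
  have hQ0 : ∀ x ∈ posSet u, 0 ≤ (argOf v x).1 := fun x hx => by
    obtain ⟨L, -, hQ, -⟩ := arg_frame hu hWo hsub' hv' hvu (subset_closure hx)
      (ne_zero_of_mem_posSet hu hx)
    exact hQ ▸ Finset.sum_nonneg fun i _ => sq_nonneg _
  obtain ⟨B, hB⟩ : ∃ B, ∀ x ∈ posSet u, 1 ≤ ‖x‖ → ‖x‖ < 2 → |(argOf v x).1| ≤ B := by
    set K := closure (posSet u) ∩ (Metric.closedBall (0 : Euc (n + 1)) 2 \ Metric.ball 0 1)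
    have hKc : IsCompact K :=
      ((isCompact_closedBall _ _).diff Metric.isOpen_ball).inter_left isClosed_closure
    have hKW : K ⊆ W' := fun y hy =>
      hsub' ⟨hy.1, fun h => hy.2.2 (by simp [Set.mem_singleton_iff.1 h])⟩
    obtain ⟨C, hC⟩ := hKc.exists_bound_of_continuousOn (hQc.mono hKW)
    exact ⟨C, fun x hx h1 h2 => hC x ⟨subset_closure hx, by simp [h2.le], by simp [h1]⟩⟩
  have hexpr : ∀ {ε : ℝ}, 0 < ε → ∀ x ∈ posSet u, ∀ y : Fin (n + 1) → ℝ,
      (∑ i, y i * pd i (certF n (rootData ε).Φ v) x) -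
        (∑ i, y i ^ 2) * certF n (rootData ε).Φ v x +
        ∑ k, pd k (certV n oneField (rootData ε) v k) x ≤
      rootBound n ε (argOf v x) / ‖x‖ ^ (n + 1) := fun hε x hx y =>
    cert_le hu hWo hsub' hv' hvu hbd hn ((contDiff_rootData hε (k := 1)).1.differentiable one_ne_zero)
      (fun m => ((contDiff_rootData hε (k := 1)).2 m).differentiable one_ne_zero)
      (fun j => j.elim0) (fun i => i.elim0) (interior_root hε hK) hx y
  refine flat_of_certificate_family (F := fun ε => certF n (rootData ε).Φ v)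
    (V := fun ε => certV n oneField (rootData ε) v)
    (q := fun x => (c - (n : ℝ) / 2) * √((argOf v x).1) / ‖x‖ ^ (n + 1)) (δ := fun _ => 0)
    hu hWo hsub' hv' hvu (by omega) hmin hbd tendsto_const_nhds ?_ ?_ ?_
    ⟨c * √(√(B ^ 2 + 1)), ?_⟩ ?_ ?_ ?_ ?_
  · filter_upwards [self_mem_nhdsWithin] with ε (hε : 0 < ε)
    exact ⟨fun x hx => (contDiffAt_certF (contDiff_rootData hε).1 hx.2 (h4 x hx)).contDiffWithinAt,
      fun x hx => mul_nonneg (zpow_nonneg (norm_nonneg _) _) (root_pos hε _).le,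
      (homOn_cert hu hWo hsub' hv' hvu (rootData ε)).1⟩
  · filter_upwards [self_mem_nhdsWithin] with ε (hε : 0 < ε) k
    exact ⟨fun x hx => (contDiffAt_certV (contDiff_rootData hε).2 (fun j => j.elim0)
      (fun i => i.elim0) hx.2 (h4 x hx) k).contDiffWithinAt,
      (homOn_cert hu hWo hsub' hv' hvu (rootData ε)).2 k⟩
  · filter_upwards [self_mem_nhdsWithin] with ε (hε : 0 < ε) x hx hx0
    rw [zero_mul]
    exact flux_root hu hWo hsub' hv' hvu hbd hε hn hx hx0 (hcube x hx hx0)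
  · filter_upwards [self_mem_nhdsWithin, nhdsWithin_le_nhds (eventually_le_nhds (one_pos (α := ℝ)))]
      with ε (hε : 0 < ε) hε1 x hx h1 h2 y
    refine (hexpr hε x hx y).trans ?_
    set Q := (argOf v x).1
    have hQ := hQ0 x hx
    have hR : root ε Q ≤ √(√(B ^ 2 + 1)) := Real.sqrt_le_sqrt (Real.sqrt_le_sqrt (add_le_add
      (sq_le_sq.2 ((hB x hx h1 h2).trans (le_abs_self B))) hε1))
    have hb : rootBound n ε (argOf v x) ≤ c * √(√(B ^ 2 + 1)) := by
      have : (n : ℝ) * rootA ε Q * Q ≤ 0 := mul_nonpos_of_nonpos_of_nonneg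
        (mul_nonpos_of_nonneg_of_nonpos (Nat.cast_nonneg _)
          (neg_nonpos.2 (div_nonneg hQ (mul_nonneg zero_le_two (pow_nonneg (root_pos hε _).le 3))))) hQ
      calc rootBound n ε (argOf v x) ≤ c * root ε Q := by
            show _ + _ ≤ _
            simp only [show (argOf v x).1 = Q from rfl, ← hc']
            linarith
        _ ≤ _ := mul_le_mul_of_nonneg_left hR hc0
    rw [div_le_iff₀ (by positivity)]
    exact hb.trans (le_mul_of_one_le_right (mul_nonneg hc0 (Real.sqrt_nonneg _)) (one_le_pow₀ h1))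
  · exact (continuousOn_const.mul hQc.sqrt).div (continuous_norm.pow (n + 1)).continuousOn
      fun x hx => pow_ne_zero _ (norm_ne_zero_iff.2 hx.2)
  · exact fun x _ => div_nonpos_of_nonpos_of_nonneg
      (mul_nonpos_of_nonpos_of_nonneg (by linarith) (Real.sqrt_nonneg _)) (by positivity)
  · intro x hx h1 h2 a ha
    have hlim : Tendsto (fun ε => rootBound n ε (argOf v x)) (𝓝[>] 0)
        (𝓝 ((c - (n : ℝ) / 2) * √((argOf v x).1))) := by
      set Q := (argOf v x).1
      have hQ : 0 ≤ Q := hQ0 x hx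
      have hR : Tendsto (fun ε => root ε Q) (𝓝[>] 0) (𝓝 √Q) := by
        have h : Continuous fun ε => root ε Q := by unfold root; fun_prop
        have h0 : root 0 Q = √Q := by rw [root, add_zero, Real.sqrt_sq hQ]
        exact h0 ▸ (h.tendsto 0).mono_left nhdsWithin_le_nhds
      rcases hQ.eq_or_lt with h | h
      · have : ∀ ε, rootBound n ε (argOf v x) = c * root ε Q := fun ε => by
          show _ * root ε Q + (n : ℝ) * rootA ε Q * Q = _
          rw [← h, mul_zero, add_zero]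
        simp only [this]
        rw [show √Q = 0 by rw [← h, Real.sqrt_zero], mul_zero]
        have h0 : √Q = 0 := by rw [← h, Real.sqrt_zero]
        rw [h0] at hR
        simpa using hR.const_mul c
      · have h2 : Tendsto (fun ε => rootA ε Q) (𝓝[>] 0) (𝓝 (-(Q / (2 * √Q ^ 3)))) :=
          ((tendsto_const_nhds.div ((hR.pow 3).const_mul 2)
            (by have := Real.sqrt_pos.2 h; positivity)).neg)
        have h3 := (hR.const_mul c).add ((h2.const_mul (n : ℝ)).mul_const Q)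
        refine (h3.congr fun ε => rfl).trans (le_of_eq (congrArg 𝓝 ?_))
        have hs := Real.sqrt_pos.2 h
        have h4 : √Q ^ 2 = Q := Real.sq_sqrt hQ
        have key : -(Q / (2 * √Q ^ 3)) * Q = -(√Q / 2) := by
          generalize √Q = r at hs h4 ⊢
          rw [← h4]
          field_simp
        linear_combination (n : ℝ) * key
    filter_upwards [self_mem_nhdsWithin,
      hlim.eventually (eventually_le_nhds (lt_add_of_pos_right _ ha))] with ε (hε : 0 < ε) hle y
    refine (hexpr hε x hx y).trans ?_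
    rw [div_add' _ _ _ (by positivity), div_le_div_iff_of_pos_right (by positivity)]
    exact hle.trans (by linarith [le_mul_of_one_le_right ha.le (one_le_pow₀ h1 (n := n + 1))])
  · intro x hx h
    have hx0 := ne_zero_of_mem_posSet hu hx
    refine hess_eq_zero hu hWo hsub' hv' hvu (subset_closure hx) hx0 ?_
    have h1 := (div_eq_zero_iff.1 h).resolve_right (pow_ne_zero _ (norm_ne_zero_iff.2 hx0))
    exact le_antisymm (Real.sqrt_eq_zero'.1 ((mul_eq_zero.1 h1).resolve_left (by linarith)))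
      (hQ0 x hx)

end

end Vale.Agent.P098.Cone
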